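import Vale.Agent.P299.H126.Pow
import Mathlib.Geometry.Manifold.Complex

/-!
# Holomorphic functions on a compact connected complex manifold are constant
-/

open scoped Manifold ContDiff ComplexOrder Topology ENNReal
open Vale.Agent.P272.K MeasureTheory Metric

set_option linter.unusedSectionVars false

noncomputable section

namespace Vale.Agent.P299.H126

open D H212

variable {n : ℕ} {X : Type*} [TopologicalSpace X] [ChartedSpace (Cm n) X]
  [IsManifold 𝓘(ℂ, Cm n) ω X] [CompactSpace X] [PreconnectedSpace X]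

/-- a holomorphic function on a compact connected complex manifold is constant -/
theorem isTen_const {s : Ten n 0 X} (hs : IsTen 0 0 s) :
    ∃ c : ℂ, ∀ e x, At e x → sc s e (e x) = c := by
  rcases isEmpty_or_nonempty X with hX | ⟨⟨x₀⟩⟩
  · exact ⟨0, fun e x => isEmptyElim x⟩
  set f : X → ℂ := fun x => sc s (chartAt (Cm n) x) (chartAt (Cm n) x x) with hf
  have hfe : ∀ e x, At e x → f x = sc s e (e x) := by
    intro e x h
    have h' : At (chartAt (Cm n) x) x := ⟨chart_mem_atlas _ _, mem_chart_source _ _⟩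
    have := hs.change (chartAt (Cm n) x) e x h' h Fin.elim0
    rw [pow_zero, one_mul, tenPull_sc] at this
    exact this
  have hd : ContMDiff 𝓘(ℂ, Cm n) 𝓘(ℂ) ω f := by
    intro x
    have h' : At (chartAt (Cm n) x) x := ⟨chart_mem_atlas _ _, mem_chart_source _ _⟩
    set e := chartAt (Cm n) x with he
    have h1 : ContMDiffAt 𝓘(ℂ, Cm n) 𝓘(ℂ) ω (fun z => sc s e z) (e x) :=
      (hs.holo e x h' _).contDiffAt.contMDiffAt
    have h2 : ContMDiffAt 𝓘(ℂ, Cm n) 𝓘(ℂ) ω (fun y => sc s e (e y)) x :=
      h1.comp x (chart_contMDiffAt h')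
    refine h2.congr_of_eventuallyEq ?_
    filter_upwards [e.open_source.mem_nhds h'.2] with y hy
    exact hfe e y ⟨h'.1, hy⟩
  have : IsManifold 𝓘(ℂ, Cm n) 1 X := IsManifold.of_le (n := ω) le_top
  have hc := (hd.mdifferentiable (by simp)).apply_eq_of_compactSpace
  exact ⟨f x₀, fun e x h => by rw [← hfe e x h]; exact hc x x₀⟩

end Vale.Agent.P299.H126
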