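import Vale.Agent.P300.H435.L2.Meas
import Vale.Agent.P272.K.Inv.Chart

/-!
# Change of variables on a finite étale cover `S : Sheets n N`
-/

open MeasureTheory Filter Topology Set
open scoped ENNReal
open Vale.Agent.P300.L2 Vale.Agent.P300.L2.Sheets

noncomputable section

namespace Vale.Agent.P299.H126

variable {n N : ℕ}

/-- the real determinant of a complex linear map -/
theorem abs_det_restrictScalars (A : (Fin n → ℂ) →L[ℂ] (Fin n → ℂ)) :
    |(A.restrictScalars ℝ).det| = ‖A.det‖ ^ 2 := by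
  have h1 : (A.restrictScalars ℝ).det = Complex.normSq A.det := by
    rw [ContinuousLinearMap.det, ContinuousLinearMap.det]
    have h2 : ((A.restrictScalars ℝ : (Fin n → ℂ) →L[ℝ] (Fin n → ℂ)) :
        (Fin n → ℂ) →ₗ[ℝ] (Fin n → ℂ)) =
        (A : (Fin n → ℂ) →ₗ[ℂ] (Fin n → ℂ)).restrictScalars ℝ := rfl
    rw [h2, LinearMap.det_restrictScalars, Algebra.norm_complex_apply]
  rw [h1, Complex.normSq_eq_norm_sq, abs_of_nonneg (by positivity)]

/-- the determinant of the derivative is the determinant of the Jacobian matrix -/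
theorem det_fderiv_eq {τ : (Fin n → ℂ) → (Fin n → ℂ)} {z : Fin n → ℂ}
    (h : DifferentiableAt ℂ τ z) :
    (fderiv ℂ τ z).det = (Vale.Agent.P272.K.jmat τ z).det := by
  have h1 : ((fderiv ℂ τ z : (Fin n → ℂ) →L[ℂ] (Fin n → ℂ)) : (Fin n → ℂ) →ₗ[ℂ] (Fin n → ℂ)) =
      Matrix.toLin' (Vale.Agent.P272.K.jmat τ z) := by
    rw [← LinearMap.toMatrix'_symm, LinearEquiv.eq_symm_apply]
    ext p i
    rw [LinearMap.toMatrix'_apply, Vale.Agent.P272.K.jmat_apply h]
    congr 2
  rw [ContinuousLinearMap.det, h1, LinearMap.det_toLin']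

variable {S : Sheets n N}

/-- change of variables on one sheet -/
theorem cov_piece {W : Set (Fin n → ℂ)} {s : (Fin n → ℂ) → ℕ} (hs : S.IsSection W s)
    {D : Set (Fin n → ℂ)} (hD : MeasurableSet D) {f : (Fin n → ℂ) → (Fin n → ℂ)}
    (hf : ∀ z ∈ D, DifferentiableAt ℂ f z) (hinj : InjOn f D) (hfW : ∀ z ∈ D, f z ∈ W)
    {ψ : (Fin n → ℂ) × ℕ → ℝ≥0∞} (hψ : AEMeasurable ψ S.μ) :
    MeasurableSet ((fun z => (f z, s (f z))) '' D) ∧
    ∫⁻ q in (fun z => (f z, s (f z))) '' D, ψ q ∂S.μ =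
      ∫⁻ z in D, ENNReal.ofReal (‖(Vale.Agent.P272.K.jmat f z).det‖ ^ 2) * ψ (f z, s (f z)) := by
  have hd : ∀ z ∈ D, HasFDerivWithinAt f ((fderiv ℂ f z).restrictScalars ℝ) D z := fun z hz =>
    ((hf z hz).hasFDerivAt.restrictScalars ℝ).hasFDerivWithinAt
  have hfD : MeasurableSet (f '' D) := measurable_image_of_fderivWithin hD hd hinj
  have hsub : f '' D ⊆ W := by
    rintro _ ⟨z, hz, rfl⟩
    exact hfW z hz
  have hBeq : (fun z => (f z, s (f z))) '' D = Prod.fst ⁻¹' (f '' D) ∩ smGraph W s := by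
    ext q
    constructor
    · rintro ⟨z, hz, rfl⟩
      exact ⟨⟨z, hz, rfl⟩, hfW z hz, rfl⟩
    · rintro ⟨⟨z, hz, h1⟩, h2, h3⟩
      exact ⟨z, hz, Prod.ext h1 (by show s (f z) = q.2; rw [h1, h3])⟩
  have hB : MeasurableSet ((fun z => (f z, s (f z))) '' D) := by
    rw [hBeq]
    exact (measurable_fst hfD).inter (smGraph_meas hs)
  refine ⟨hB, ?_⟩
  rw [← lintegral_indicator hB, lintegral_μ' (hψ.indicator hB)]
  have h1 : ∀ z ∈ S.V, ∑ w ∈ S.fib z, ((fun z => (f z, s (f z))) '' D).indicator ψ (z, w) =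
      (f '' D).indicator (fun z => ψ (z, s z)) z := by
    intro z hz
    by_cases hzD : z ∈ f '' D
    · rw [indicator_of_mem hzD]
      have hzW := hsub hzD
      rw [Finset.sum_eq_single (s z)]
      · rw [indicator_of_mem]
        obtain ⟨y, hy, rfl⟩ := hzD
        exact ⟨y, hy, rfl⟩
      · intro w _ hw
        refine indicator_of_notMem ?_ _
        rintro ⟨y, hy, hyq⟩
        rw [Prod.mk.injEq] at hyq
        exact hw (by rw [← hyq.2, hyq.1])
      · intro hw
        exact absurd (hs.mem z hzW) hw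
    · rw [indicator_of_notMem hzD]
      refine Finset.sum_eq_zero fun w _ => indicator_of_notMem ?_ _
      rintro ⟨y, hy, hyq⟩
      rw [Prod.mk.injEq] at hyq
      exact hzD ⟨y, hy, hyq.1⟩
  rw [setLIntegral_congr_fun S.isOpen.measurableSet h1, lintegral_indicator hfD,
    Measure.restrict_restrict hfD, inter_eq_self_of_subset_left (hsub.trans hs.subset),
    lintegral_image_eq_lintegral_abs_det_fderiv_mul volume hD hd hinj]
  refine setLIntegral_congr_fun hD fun z hz => ?_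
  show ENNReal.ofReal |((fderiv ℂ f z).restrictScalars ℝ).det| * _ = _
  rw [abs_det_restrictScalars, det_fderiv_eq (hf z hz)]

end Vale.Agent.P299.H126
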