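import Vale.Agent.P299.H212.Wedge
import Vale.Agent.P271.H408.Ext

/-!
# `L²` extension of holomorphic tensors across a thin set

`Thin N` : `N` is locally contained in the zero set of a holomorphic function which is not locally
zero. `IsTenOff N p m s` : the components `s` define a holomorphic section of
`(Ω¹)^{⊗p} ⊗ (-mK)` over `X \ N`. If all components are locally square integrable, then the tensor
extends to `X` (`ext_ten`).
-/

open scoped Manifold ContDiff ComplexOrder Topology ENNReal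
open Vale.Agent.P272.K MeasureTheory Metric

set_option linter.unusedSectionVars false

noncomputable section

namespace Vale.Agent.P299.H126

open D H212

variable {n p : ℕ} {X : Type*} [TopologicalSpace X] [ChartedSpace (Cm n) X]

/-- `N` is locally contained in the zero set of a holomorphic function which is not locally zero -/
def Thin (n : ℕ) {X : Type*} [TopologicalSpace X] [ChartedSpace (Cm n) X] (N : Set X) : Prop :=
  ∀ (e : Chart n X) (x : X), At e x → ∃ (U : Set (Cm n)) (h : Cm n → ℂ), IsOpen U ∧ e x ∈ U ∧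
    U ⊆ e.target ∧ DifferentiableOn ℂ h U ∧ (∀ q ∈ U, ∃ᶠ z in 𝓝 q, h z ≠ 0) ∧
    ∀ z ∈ U, e.symm z ∈ N → h z = 0

/-- a holomorphic section of `(Ω¹)^{⊗p} ⊗ (-mK)` over `X \ N` -/
structure IsTenOff (N : Set X) (p m : ℕ) (s : Ten n p X) : Prop where
  holo : ∀ e x, At e x → x ∉ N → ∀ I, AnalyticAt ℂ (fun z => s e z I) (e x)
  change : ∀ e e' x, At e x → At e' x → x ∉ N → ∀ I,
    (jacM e e' x).det ^ m * s e (e x) I = tenPull (jacM e e' x) (s e' (e' x)) I

/-- local extension -/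
theorem ext_local {N : Set X} (hN : Thin n N) {e : Chart n X} {x : X} (hx : At e x)
    {f : Cm n → ℂ} (hf : ∀ y, At e y → y ∉ N → AnalyticAt ℂ f (e y))
    (hL : ∀ y, At e y → ∃ r > 0, ∫⁻ z in ball (e y) r ∩ {z | z ∈ e.target ∧ e.symm z ∉ N},
      ‖f z‖ₑ ^ 2 ≠ ⊤) :
    ∃ (V : Set (Cm n)) (F : Cm n → ℂ), IsOpen V ∧ e x ∈ V ∧ V ⊆ e.target ∧
      DifferentiableOn ℂ F V ∧ (∀ z ∈ V, e.symm z ∉ N → F z = f z) ∧
      ∀ q ∈ V, ∃ᶠ z in 𝓝 q, e.symm z ∉ N := by
  obtain ⟨U, h, hU, hxU, hUt, hh, hne, hz⟩ := hN e x hx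
  have hAt : ∀ z ∈ U, At e (e.symm z) := fun z hz => At.of_target hx.1 (hUt hz)
  have hr : ∀ z ∈ U, e (e.symm z) = z := fun z hz => e.right_inv (hUt hz)
  have hfd : DifferentiableOn ℂ f (U ∩ {z | h z ≠ 0}) := by
    intro z hzz
    have := hf _ (hAt z hzz.1) (fun hc => hzz.2 (hz z hzz.1 hc))
    rw [hr z hzz.1] at this
    exact this.differentiableAt.differentiableWithinAt
  obtain ⟨F, hF, hFe⟩ := Vale.Agent.P271.H408.ext_L2 hU hh hne hfd (by
    intro q hq
    obtain ⟨r, hr0, hr1⟩ := hL _ (hAt q hq)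
    rw [hr q hq] at hr1
    obtain ⟨r', hr'0, hr'1⟩ := Metric.isOpen_iff.1 hU q hq
    refine ⟨min r r', lt_min hr0 hr'0, ne_top_of_le_ne_top hr1 (lintegral_mono_set ?_)⟩
    rintro z ⟨hz1, hz2⟩
    have hzU : z ∈ U := hr'1 (ball_subset_ball (min_le_right _ _) hz1)
    exact ⟨ball_subset_ball (min_le_left _ _) hz1, hUt hzU, fun hc => hz2 (hz z hzU hc)⟩)
  have hfr : ∀ q ∈ U, ∃ᶠ z in 𝓝 q, e.symm z ∉ N := fun q hq =>
    ((hne q hq).and_eventually (hU.mem_nhds hq)).mono fun z hzz hc => hzz.1 (hz z hzz.2 hc)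
  refine ⟨U, F, hU, hxU, hUt, hF, ?_, hfr⟩
  intro z hzU hzN
  by_contra hne'
  -- both sides are continuous at `z`
  have h1 : ContinuousAt F z := hF.continuousOn.continuousAt (hU.mem_nhds hzU)
  have h2 : ContinuousAt f z := by
    have := hf _ (hAt z hzU) hzN
    rw [hr z hzU] at this
    exact this.continuousAt
  have h3 : ∀ᶠ w in 𝓝 z, F w ≠ f w := (h1.ne_iff_eventually_ne h2).1 hne'
  obtain ⟨w, hw1, hw2, hw3⟩ := ((hne z hzU).and_eventually (h3.and (hU.mem_nhds hzU))).exists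
  exact hw2 (hFe w hw3 hw1)

/-- extension in one chart -/
theorem ext_chart {N : Set X} (hN : Thin n N) {e : Chart n X} (he : e ∈ atlas (Cm n) X)
    {f : Cm n → ℂ} (hf : ∀ y, At e y → y ∉ N → AnalyticAt ℂ f (e y))
    (hL : ∀ y, At e y → ∃ r > 0, ∫⁻ z in ball (e y) r ∩ {z | z ∈ e.target ∧ e.symm z ∉ N},
      ‖f z‖ₑ ^ 2 ≠ ⊤) :
    ∃ G : Cm n → ℂ, (∀ y, At e y → AnalyticAt ℂ G (e y)) ∧
      ∀ y, At e y → y ∉ N → G (e y) = f (e y) := by
  classical
  have hloc : ∀ z : e.target, ∃ (V : Set (Cm n)) (F : Cm n → ℂ), IsOpen V ∧ (z : Cm n) ∈ V ∧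
      V ⊆ e.target ∧ DifferentiableOn ℂ F V ∧ (∀ w ∈ V, e.symm w ∉ N → F w = f w) ∧
      ∀ q ∈ V, ∃ᶠ w in 𝓝 q, e.symm w ∉ N := by
    rintro ⟨z, hz⟩
    have := ext_local hN (At.of_target he hz) hf hL
    rwa [e.right_inv hz] at this
  choose V F hV hzV hVt hF hFe hfr using hloc
  have hagree : ∀ (a b : e.target) (z : Cm n), z ∈ V a → z ∈ V b → F a z = F b z := by
    intro a b z ha hb
    by_contra hne
    have h1 : ContinuousAt (F a) z := (hF a).continuousOn.continuousAt ((hV a).mem_nhds ha)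
    have h2 : ContinuousAt (F b) z := (hF b).continuousOn.continuousAt ((hV b).mem_nhds hb)
    have h3 : ∀ᶠ w in 𝓝 z, F a w ≠ F b w := (h1.ne_iff_eventually_ne h2).1 hne
    obtain ⟨w, hw1, hw2, hw3, hw4⟩ := ((hfr a z ha).and_eventually
      (h3.and (((hV a).eventually_mem ha).and ((hV b).eventually_mem hb)))).exists
    exact hw2 (by rw [hFe a w hw3 hw1, hFe b w hw4 hw1])
  let G : Cm n → ℂ := fun z => if hz : z ∈ e.target then F ⟨z, hz⟩ z else 0
  have hG : ∀ (a : e.target) (z : Cm n), z ∈ V a → G z = F a z := by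
    intro a z hz
    have hzt : z ∈ e.target := hVt a hz
    have h1 : G z = F ⟨z, hzt⟩ z := by simp only [G, hzt, dif_pos]
    rw [h1]
    exact hagree ⟨z, hzt⟩ a z (hzV ⟨z, hzt⟩) hz
  refine ⟨G, fun y hy => ?_, fun y hy hyN => ?_⟩
  · have h1 : AnalyticAt ℂ (F ⟨e y, hy.mem_target⟩) (e y) :=
      Vale.Agent.P268.analyticAt_of_differentiableOn (hV _) (hF _) (hzV _)
    refine h1.congr ?_
    filter_upwards [(hV ⟨e y, hy.mem_target⟩).mem_nhds (hzV _)] with z hz
    exact (hG _ z hz).symm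
  · rw [hG ⟨e y, hy.mem_target⟩ (e y) (hzV _)]
    exact hFe _ _ (hzV _) (by rwa [hy.left_inv])

/-- the complement of a thin set is dense -/
theorem Thin.dense {N : Set X} (hN : Thin n N) : Dense Nᶜ := by
  intro x
  rw [mem_closure_iff_nhds]
  intro W hW
  set e : Chart n X := chartAt (Cm n) x with he
  have hx : At e x := ⟨chart_mem_atlas _ _, mem_chart_source _ _⟩
  obtain ⟨U, h, hU, hxU, hUt, hh, hne, hz⟩ := hN e x hx
  have h1 : ∀ᶠ z in 𝓝 (e x), e.symm z ∈ W :=
    (e.continuousAt_symm hx.mem_target) (by rwa [hx.left_inv])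
  obtain ⟨z, hz1, hz2, hz3⟩ := ((hne _ hxU).and_eventually (h1.and (hU.mem_nhds hxU))).exists
  exact ⟨e.symm z, hz2, fun hc => hz1 (hz z hz3 hc)⟩

variable [IsManifold 𝓘(ℂ, Cm n) ω X]

/-- **`L²` extension of tensors** -/
theorem ext_ten {N : Set X} (hN : Thin n N) {m : ℕ} {s : Ten n p X} (hs : IsTenOff N p m s)
    (hL : ∀ e y, At e y → ∀ I, ∃ r > 0,
      ∫⁻ z in ball (e y) r ∩ {z | z ∈ e.target ∧ e.symm z ∉ N}, ‖s e z I‖ₑ ^ 2 ≠ ⊤) :
    ∃ s' : Ten n p X, IsTen p m s' ∧ ∀ e x, At e x → x ∉ N → s' e (e x) = s e (e x) := by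
  classical
  have hG : ∀ (e : atlas (Cm n) X) (I : Fin p → Fin n), ∃ G : Cm n → ℂ,
      (∀ y, At e.1 y → AnalyticAt ℂ G (e.1 y)) ∧
      ∀ y, At e.1 y → y ∉ N → G (e.1 y) = s e.1 (e.1 y) I := fun e I =>
    ext_chart hN e.2 (fun y hy hyN => hs.holo e.1 y hy hyN I) fun y hy => hL e.1 y hy I
  choose G hG1 hG2 using hG
  let s' : Ten n p X := fun e z I => if he : e ∈ atlas (Cm n) X then G ⟨e, he⟩ I z else 0
  have hs' : ∀ (e : Chart n X) (he : e ∈ atlas (Cm n) X) (z : Cm n) (I : Fin p → Fin n),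
      s' e z I = G ⟨e, he⟩ I z := fun e he z I => by simp only [s', he, dif_pos]
  have hholo : ∀ e x, At e x → ∀ I, AnalyticAt ℂ (fun z => s' e z I) (e x) := by
    intro e x hx I
    have h1 : (fun z => s' e z I) = G ⟨e, hx.1⟩ I := by
      funext z
      exact hs' e hx.1 z I
    rw [h1]
    exact hG1 ⟨e, hx.1⟩ I x hx
  have hoff : ∀ e x, At e x → x ∉ N → s' e (e x) = s e (e x) := by
    intro e x hx hxN
    funext I
    rw [hs' e hx.1, hG2 ⟨e, hx.1⟩ I x hx hxN]
  refine ⟨s', ⟨hholo, ?_⟩, hoff⟩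
  intro e e' x hx hx' I
  by_contra hne
  have hcont : ContinuousAt (fun y => (jacM e e' y).det ^ m * s' e (e y) I) x := by
    have h1 : ContinuousAt (fun y => (jacM e e' (e.symm (e y))).det) x :=
      ((jacM_det_holo hx hx').continuousAt).comp (e.continuousAt hx.2)
    have h2 : ContinuousAt (fun y => (jacM e e' y).det) x := by
      refine h1.congr ?_
      filter_upwards [e.open_source.mem_nhds hx.2] with y hy
      rw [e.left_inv hy]
    exact (h2.pow m).mul (((hholo e x hx I).continuousAt).comp (e.continuousAt hx.2))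
  have hcont' : ContinuousAt (fun y => tenPull (jacM e e' y) (s' e' (e' y)) I) x := by
    unfold tenPull
    refine tendsto_finsetSum _ fun K _ => ?_
    refine Filter.Tendsto.mul (tendsto_finsetProd _ fun a _ => ?_) ?_
    · have h1 : ContinuousAt (fun y => jacM e e' (e.symm (e y)) (K a) (I a)) x :=
        ((jacM_holo hx hx' (K a) (I a)).continuousAt).comp (e.continuousAt hx.2)
      refine (h1.congr ?_)
      filter_upwards [e.open_source.mem_nhds hx.2] with y hy
      rw [e.left_inv hy]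
    · exact ((hholo e' x hx' K).continuousAt).comp (e'.continuousAt hx'.2)
  have h3 := (hcont.ne_iff_eventually_ne hcont').1 hne
  obtain ⟨y, hyN, hy⟩ := hN.dense.inter_nhds_nonempty (Filter.inter_mem h3
    (Filter.inter_mem (e.open_source.mem_nhds hx.2) (e'.open_source.mem_nhds hx'.2)))
  refine hy.1 ?_
  have hy1 : At e y := ⟨hx.1, hy.2.1⟩
  have hy2 : At e' y := ⟨hx'.1, hy.2.2⟩
  show (jacM e e' y).det ^ m * s' e (e y) I = tenPull (jacM e e' y) (s' e' (e' y)) I
  rw [hoff e y hy1 hyN, hoff e' y hy2 hyN]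
  exact hs.change e e' y hy1 hy2 hyN I

end Vale.Agent.P299.H126
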