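import Vale.Agent.P299.H126.H1a

/-!
# (H1): `L²` functions with vertical weights are multiples of `s^j` by functions from the base
-/

open scoped Manifold ContDiff ComplexOrder Topology ENNReal
open Vale.Agent.P272.K MeasureTheory Metric
open Vale.Agent.P300.L2 Filter
open Vale.Agent.P282.L2 (Pol)

set_option linter.unusedSectionVars false

noncomputable section

namespace Vale.Agent.P299.H126

open D H212

section freq

variable {n : ℕ} {L : Type} [Field L] [Algebra ℂ L] [Algebra (Pol n) L]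
  [IsScalarTower ℂ (Pol n) L] [FaithfulSMul (Pol n) L] {A : H340.Mod n L}

/-- identity theorem along a section -/
theorem frequently_val_ne {a : L} (ha : A.IsReg a) (h : a ≠ 0) {W : Set (Fin n → ℂ)}
    {s : (Fin n → ℂ) → ℕ} (hs : A.S.IsSection W s) {z : Fin n → ℂ} (hz : z ∈ W) :
    ∃ᶠ w in 𝓝 z, A.val a (w, s w) ≠ 0 := by
  intro hcon
  have h1 := H340.Mod.ae_val_ne_zero ha h
  rw [Sheets.ae_μ_iff] at h1
  have h2 : ∀ᶠ w in 𝓝 z, A.val a (w, s w) = 0 ∧ w ∈ W := by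
    filter_upwards [hcon, hs.isOpen.mem_nhds hz] with w hw hwW using ⟨not_not.1 hw, hwW⟩
  obtain ⟨U, hU1, hU2, hU3⟩ := _root_.eventually_nhds_iff.1 h2
  have h3 : (volume.restrict A.S.V) U = 0 := by
    refine measure_mono_null (fun w hw => ?_) h1
    intro hw'
    exact hw' (s w) (hs.mem w (hU1 w hw).2) (hU1 w hw).1
  rw [Measure.restrict_apply hU2.measurableSet,
    Set.inter_eq_self_of_subset_left (fun w hw => hs.subset (hU1 w hw).2)] at h3
  exact (hU2.measure_pos volume ⟨z, hU3⟩).ne' h3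

/-- cancellation of a nonzero regular function -/
theorem cancel_val {a : L} (ha : A.IsReg a) (h : a ≠ 0) {G : (Fin n → ℂ) × ℕ → ℂ}
    (hG : A.S.Holo G) (h0 : ∀ q ∈ A.S.M, A.val a q * G q = 0) : ∀ q ∈ A.S.M, G q = 0 := by
  intro q hq
  obtain ⟨s, W, hs, hW, hsq⟩ := Sheets.exists_section hq
  by_contra hne
  have hc : ContinuousAt (fun z => G (z, s z)) q.1 :=
    ((hG W s hs).differentiableAt (hs.isOpen.mem_nhds hW)).continuousAt
  have h1 : ∀ᶠ w in 𝓝 q.1, G (w, s w) ≠ 0 := hc.eventually_ne (by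
    show G (q.1, s q.1) ≠ 0
    rw [hsq]; exact hne)
  obtain ⟨w, hw1, hw2, hw3⟩ := ((frequently_val_ne ha h hs hW).and_eventually
    (h1.and (hs.isOpen.mem_nhds hW))).exists
  exact mul_ne_zero hw1 hw2 (h0 _ (hs.mem_M hw3))

end freq

section quot

variable {n p m t b : ℕ} {L : Type} [Field L] [Algebra ℂ L] [Algebra (Pol n) L]
  [IsScalarTower ℂ (Pol n) L] [FaithfulSMul (Pol n) L] {A : H340.Mod n L}
  {X : Type} [TopologicalSpace X] [ChartedSpace (Cm n) X]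
  [IsManifold 𝓘(ℂ, Cm n) ω X] [Nonempty X] {B : H216.Brg A.S X} {C : CompData n X L}

/-- the function `F` is the value of an element of `L_b` -/
theorem exists_Lb [ConnectedSpace X] (hC : ∀ {k m : ℕ} {u : Ten n k X}, IsTen k m u → ∀ I, A.IsReg (C.comp m u I) ∧
      ∀ q ∈ A.S.M, A.val (C.comp m u I) q = B.comp m u I q)
    {F : (Fin n → ℂ) × ℕ → ℂ} (hF : A.S.Holo F) (hF0 : ∃ q ∈ A.S.M, F q ≠ 0)
    {T : Ten n p X} (hT : IsTen p m T) (hTZ : TenNZ T) {s' : Ten n (t * p) X}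
    (hs' : IsTen (t * p) (b + t * m) s')
    (hs : ∀ e x, At e x → x ∈ B.Xo → s' e (e x) = mulPow t (toTen B b F) T e (e x)) :
    ∃ f u₀ : L, f ≠ 0 ∧ C.Lb b f ∧ u₀ ≠ 0 ∧ A.IsReg u₀ ∧ A.IsReg (f * u₀) ∧
      ∀ q ∈ A.S.M, A.val (f * u₀) q = F q * A.val u₀ q := by
  have hT' : IsTen (t * p) (t * m) (tpow t T) := isTen_tpow hT
  obtain ⟨I₀, hI₀⟩ := C.comp_ne hT' (tenNZ_tpow hTZ)
  have hval : ∀ I, ∀ q ∈ A.S.M, A.val (C.comp (b + t * m) s' I) q =
      F q * A.val (C.comp (t * m) (tpow t T) I) q := by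
    intro I q hq
    rw [(hC hs' I).2 q hq, (hC hT' I).2 q hq, comp_mulPow' B hq hs, comp_tpow B hq]
  set v := C.comp (b + t * m) s' with hv
  set u := C.comp (t * m) (tpow t T) with hu
  have hcross : ∀ I, v I * u I₀ = v I₀ * u I := by
    intro I
    refine H340.Mod.eq_of_val' ((hC hs' I).1.mul (hC hT' I₀).1) ((hC hs' I₀).1.mul (hC hT' I).1) ?_
    intro q hq
    rw [H340.Mod.val_mul hq (hC hs' I).1 (hC hT' I₀).1,
      H340.Mod.val_mul hq (hC hs' I₀).1 (hC hT' I).1, hval I q hq, hval I₀ q hq]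
    ring
  have hv0 : v I₀ ≠ 0 := by
    intro h0
    obtain ⟨q, hq, hq0⟩ := hF0
    refine hq0 (cancel_val (hC hT' I₀).1 hI₀ hF (fun q hq => ?_) q hq)
    rw [mul_comm, ← hval I₀ q hq, h0, H340.Mod.val_zero hq]
  have hf : ∀ I, v I = v I₀ / u I₀ * u I := by
    intro I
    rw [div_mul_eq_mul_div, eq_div_iff hI₀, hcross I]
  refine ⟨v I₀ / u I₀, u I₀, div_ne_zero hv0 hI₀, ⟨t * p, t * m, b + t * m, tpow t T, s',
    by push_cast; ring, hT', hs', tenNZ_tpow hTZ, hf⟩, hI₀, (hC hT' I₀).1, ?_, ?_⟩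
  · rw [div_mul_cancel₀ _ hI₀]
    exact (hC hs' I₀).1
  · intro q hq
    rw [div_mul_cancel₀ _ hI₀]
    exact hval I₀ q hq

variable {k : ℕ} {K₀ : Type} [Field K₀] [Algebra ℂ K₀] [Algebra (Pol k) K₀]
  [IsScalarTower ℂ (Pol k) K₀] [FaithfulSMul (Pol k) K₀] {Bm : H340.Mod k K₀}
  {Φ : (Fin n → ℂ) × ℕ → (Fin k → ℂ) × ℕ} {ι : Fin k ↪ Fin n} {i : K₀ →+* L}

/-- **Descent of `F`**: `F = f(Φ) s^j` -/
theorem exists_base [ConnectedSpace X]
    (hC : ∀ {k m : ℕ} {u : Ten n k X}, IsTen k m u → ∀ I, A.IsReg (C.comp m u I) ∧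
      ∀ q ∈ A.S.M, A.val (C.comp m u I) q = B.comp m u I q)
    -- the group trick
    {b₁ : ℕ} (hb₁ : 0 < b₁) {s : L} (hs0 : s ≠ 0) (hsr : A.IsReg s) (hsi : A.IsReg s⁻¹)
    (hgen : ∀ (b : ℤ) (f : L), f ≠ 0 → C.Lb b f →
      ∃ (j : ℤ) (g : L), b = j * b₁ ∧ C.Lb 0 g ∧ g ≠ 0 ∧ f = s ^ j * g)
    -- the base
    (hK₀ : ∀ g, C.Lb 0 g → ∃ g₀ : K₀, i g₀ = g)
    (hΦ : ∀ a, Bm.IsReg a → A.IsReg (i a) ∧ ∀ q ∈ A.S.M, A.val (i a) q = Bm.val a (Φ q))
    (fst : ∀ q ∈ A.S.M, (Φ q).1 = q.1 ∘ ι) (maps : ∀ q ∈ A.S.M, Φ q ∈ Bm.S.M)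
    (loc : ∀ W s, A.S.IsSection W s → ∀ z ∈ W, ∃ W' σ, Bm.S.IsSection W' σ ∧ z ∘ ι ∈ W' ∧
      ∀ᶠ ζ in 𝓝 z, (Φ (ζ, s ζ)).2 = σ (ζ ∘ ι))
    (surj : ∀ y ∈ Bm.S.M, ∃ q ∈ A.S.M, Φ q = y)
    -- the function
    {j : ℕ} {F : (Fin n → ℂ) × ℕ → ℂ} (hF : A.S.Holo F)
    {T : Ten n p X} (hT : IsTen p m T) (hTZ : TenNZ T) {s' : Ten n (t * p) X}
    (hs' : IsTen (t * p) (j * b₁ + t * m) s')
    (hs : ∀ e x, At e x → x ∈ B.Xo → s' e (e x) = mulPow t (toTen B (j * b₁) F) T e (e x)) :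
    ∃ f, Bm.S.Holo f ∧ ∀ q ∈ A.S.M, F q = f (Φ q) * A.val s q ^ j := by
  by_cases hF0 : ∃ q ∈ A.S.M, F q ≠ 0
  swap
  · push Not at hF0
    exact ⟨fun _ => 0, Sheets.Holo.const 0, fun q hq => by rw [hF0 q hq, zero_mul]⟩
  obtain ⟨f, u₀, hf0, hLb, hu₀, hur, hfr, hval⟩ := exists_Lb hC hF hF0 hT hTZ hs' hs
  obtain ⟨j', g, hj, hg, hg0, hfg⟩ := hgen _ f hf0 hLb
  have hjj : j' = j := by
    have h1 : ((j : ℤ) - j') * b₁ = 0 := by
      push_cast at hj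
      linear_combination hj
    have h2 : (b₁ : ℤ) ≠ 0 := by exact_mod_cast hb₁.ne'
    have h3 := (mul_eq_zero.1 h1).resolve_right h2
    linarith
  subst hjj
  rw [zpow_natCast] at hfg
  obtain ⟨g₀, rfl⟩ := hK₀ g hg
  obtain ⟨P, c, hc, hP⟩ := Bm.E.gen g₀
  have hcr : Bm.IsReg (algebraMap (Pol k) K₀ c) := H340.Mod.isReg_alg c
  have har : Bm.IsReg (algebraMap (Pol k) K₀ c * g₀) := by
    rw [hP]
    exact H340.Mod.isReg_of_integral
      (adjoin_le_integralClosure Bm.E.integral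
        (Polynomial.aeval_mem_adjoin_singleton _ _))
  set c₀ := algebraMap (Pol k) K₀ c with hc₀
  have hc₀0 : c₀ ≠ 0 := by
    rw [hc₀, Ne, FaithfulSMul.algebraMap_eq_zero_iff]
    exact hc
  have hsv : ∀ q ∈ A.S.M, A.val s q ≠ 0 := fun q hq =>
    H340.Mod.val_ne_zero_of_inv hq hs0 hsr hsi
  -- the relation on `S.M`
  have hrel : ∀ q ∈ A.S.M, Bm.val c₀ (Φ q) * F q =
      A.val s q ^ j * Bm.val (c₀ * g₀) (Φ q) := by
    have hh : A.S.Holo (fun q => A.val (i c₀) q * F q +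
        (-1) * (A.val s q ^ j * A.val (i (c₀ * g₀)) q)) := by
      have e1 : A.S.Holo (fun q => A.val s q ^ j) := by
        have := H340.Mod.holo_val (A := A) (hsr.pow j)
        intro W σ hσ
        refine (this W σ hσ).congr fun z hz => ?_
        exact (H340.Mod.val_pow (hσ.mem_M hz) hsr j).symm
      exact ((H340.Mod.holo_val (hΦ _ hcr).1).mul hF).add
        ((Sheets.Holo.const (-1)).mul (e1.mul (H340.Mod.holo_val (hΦ _ har).1)))
    have h1 := cancel_val hur hu₀ hh (fun q hq => ?_)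
    · intro q hq
      have h2 := h1 q hq
      rw [(hΦ _ hcr).2 q hq, (hΦ _ har).2 q hq] at h2
      linear_combination h2
    · have e2 : i c₀ * (f * u₀) = s ^ j * i (c₀ * g₀) * u₀ := by
        rw [hfg, map_mul]
        ring
      have e3 : A.val (i c₀ * (f * u₀)) q = A.val (s ^ j * i (c₀ * g₀) * u₀) q := by rw [e2]
      rw [H340.Mod.val_mul hq (hΦ _ hcr).1 hfr, H340.Mod.val_mul hq
        ((hsr.pow j).mul (hΦ _ har).1) hur, H340.Mod.val_mul hq (hsr.pow j) (hΦ _ har).1,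
        H340.Mod.val_pow hq hsr, hval q hq] at e3
      linear_combination e3
  -- descend `F / s^j`
  have hGh : A.S.Holo (fun q => F q * A.val s⁻¹ q ^ j) := by
    have e1 : A.S.Holo (fun q => A.val s⁻¹ q ^ j) := by
      have := H340.Mod.holo_val (A := A) (hsi.pow j)
      intro W σ hσ
      refine (this W σ hσ).congr fun z hz => ?_
      exact (H340.Mod.val_pow (hσ.mem_M hz) hsi j).symm
    exact hF.mul e1
  have hinv : ∀ q ∈ A.S.M, A.val s⁻¹ q = (A.val s q)⁻¹ := fun q hq =>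
    H340.Mod.val_inv hq hsr hsi
  obtain ⟨f', hf', hff⟩ := descend (T := Bm.S) (a := Bm.val (c₀ * g₀)) (c := Bm.val c₀)
    fst maps loc surj hGh (fun W' σ hσ z hz => frequently_val_ne hcr hc₀0 hσ hz) (by
      intro q hq
      have h1 := hsv q hq
      show Bm.val c₀ (Φ q) * (F q * A.val s⁻¹ q ^ j) = Bm.val (c₀ * g₀) (Φ q)
      rw [hinv q hq, ← mul_assoc, hrel q hq, inv_pow]
      field_simp)
  refine ⟨f', hf', fun q hq => ?_⟩
  have h1 := hsv q hq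
  rw [← hff q hq, hinv q hq, inv_pow]
  field_simp

end quot

end Vale.Agent.P299.H126
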