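import Vale.Agent.P299.H216.BrgM
import Vale.Agent.P299.H126.H1b
import Vale.Agent.P299.H126.Const
import Vale.Agent.P299.H531.Main

/-!
# G5: square integrable functions on the model are tensors on `X`; (H1)
-/

open scoped Manifold ContDiff ComplexOrder Topology ENNReal
open Vale.Agent.P272.K MeasureTheory Metric
open Vale.Agent.P300.L2 Filter
open Vale.Agent.P282.L2 (Pol)

set_option linter.unusedSectionVars false

noncomputable section

namespace Vale.Agent.P299.H126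

open D H212

section G5

variable {n N p m t b r : ℕ} {S : Sheets n N} {X : Type} [TopologicalSpace X]
  [ChartedSpace (Cm n) X] [IsManifold 𝓘(ℂ, Cm n) ω X] [Nonempty X] {B : H216.Brg S X}
  {φ : Chart n X → Cm n → ℝ}

theorem neg_wt_eq (hφ : IsCanonicalMetric φ) : ∀ e x, At e x → x ∈ B.Xo →
    -B.wt φ (B.θ x) = Real.log (‖(B.J e x).det‖ ^ 2) - φ e (e x) := by
  intro e x h hx
  have h1 := B.j_θ hx
  have h2 := B.wt_eq hφ.change (B.maps x hx) (e := e) (by rw [h1]; exact h)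
  rw [h2, h1]
  ring

theorem aemeas_norm_sq {F : (Fin n → ℂ) × ℕ → ℂ} (hF : S.Holo F) :
    AEMeasurable (fun q => ‖F q‖ ^ 2) S.μ :=
  ((Sheets.aestronglyMeasurable_of_CD (hF.CD 0)).norm.aemeasurable).pow_const 2

theorem aemeas_weight (hφ : IsCanonicalMetric φ) {F : (Fin n → ℂ) × ℕ → ℂ} (hF : S.Holo F)
    {zf : Fin r → (Fin n → ℂ) × ℕ → ℂ} (hz : ∀ i, S.Holo (zf i)) :
    AEMeasurable (fun q => ENNReal.ofReal (‖F q‖ ^ 2 *
      Real.exp (-((b + 1 : ℕ) * (-B.wt φ q))) * ((1 + ∑ i, ‖zf i q‖ ^ 2) ^ t)⁻¹)) S.μ := by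
  refine AEMeasurable.ennreal_ofReal ?_
  refine ((aemeas_norm_sq hF).mul ?_).mul ?_
  · refine Real.measurable_exp.comp_aemeasurable ?_
    exact ((H216.Brg.aemeas_of_CD (B.wt_CD hφ 0)).neg.const_mul _).neg
  · refine AEMeasurable.inv ?_
    refine AEMeasurable.pow_const ?_ t
    refine (aemeasurable_const).add ?_
    exact Finset.aemeasurable_fun_sum _ fun i _ => aemeas_norm_sq (hz i)

/-- **`L²` functions on the cover are tensors on `X`** -/
theorem ext_L2' (hN : H212.Thin (n := n) B.Xoᶜ) (hφ : IsCanonicalMetric φ)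
    {F : (Fin n → ℂ) × ℕ → ℂ} (hF : S.Holo F) {T : Ten n p X}
    {A : Fin r → Ten n p X} (hT : IsTen p m T) (hA : ∀ i, IsTen p m (A i))
    {zf : Fin r → (Fin n → ℂ) × ℕ → ℂ} (hzf : ∀ i, S.Holo (zf i))
    (hz : ∀ i I, ∀ q ∈ S.M, B.comp m (A i) I q = zf i q * B.comp m T I q)
    (hL : ∫⁻ q, ENNReal.ofReal (‖F q‖ ^ 2 * Real.exp (-((b + 1 : ℕ) * (-B.wt φ q))) *
      ((1 + ∑ i, ‖zf i q‖ ^ 2) ^ t)⁻¹) ∂S.μ ≠ ⊤) :
    ∃ s : Ten n (t * p) X, IsTen (t * p) (b + t * m) s ∧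
      ∀ e x, At e x → x ∈ B.Xo → s e (e x) = mulPow t (toTen B b F) T e (e x) := by
  refine ext_L2 B (thin_of_212 hN) hφ (neg_wt_eq hφ) B.hcov hF hT hA ?_
    (aemeas_weight hφ hF hzf) hL
  intro i e x h hx
  funext I
  have hM := B.maps x hx
  rw [← B.ofComp_comp hx ((hA i).chg x) h I, Pi.smul_apply, smul_eq_mul,
    ← B.ofComp_comp hx (hT.chg x) h I]
  have h1 : ∀ G : (Fin p → Fin n) → (Fin n → ℂ) × ℕ → ℂ, B.ofComp m G e (e x) I =
      ((B.J e x).det ^ m)⁻¹ * tenPull (B.J e x) (fun K => G K (B.θ x)) I := by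
    intro G
    show ((B.J e (e.symm (e x))).det ^ m)⁻¹ * tenPull (B.J e (e.symm (e x)))
      (fun K => G K (B.θ (e.symm (e x)))) I = _
    rw [h.left_inv]
  rw [h1, h1]
  have h2 : (fun K => B.comp m (A i) K (B.θ x)) =
      fun K => zf i (B.θ x) * B.comp m T K (B.θ x) := by
    funext K
    exact hz i K _ hM
  rw [h2, H216.tenPull_smul']
  ring

/-- the unweighted case: a square integrable function is a section of `-bK_X` -/
theorem ext_zero (hN : H212.Thin (n := n) B.Xoᶜ) (hφ : IsCanonicalMetric φ)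
    {F : (Fin n → ℂ) × ℕ → ℂ} (hF : S.Holo F)
    (hL : ∫⁻ q, ENNReal.ofReal (‖F q‖ ^ 2 *
      Real.exp (-((b + 1 : ℝ) * (-B.wt φ q)))) ∂S.μ < ⊤) :
    ∃ s : Ten n 0 X, IsTen 0 b s ∧
      ∀ e x, At e x → x ∈ B.Xo → sc s e (e x) = sc (toTen B b F) e (e x) := by
  obtain ⟨s, hs, hs'⟩ := ext_L2' (b := b) (p := 0) (m := 0) (t := 0) (r := 0) (B := B)
    (T := fun _ _ _ => 1) (A := fun i => i.elim0) (zf := fun i => i.elim0) hN hφ hF isTen_one
    (fun i => i.elim0) (fun i => i.elim0) (fun i => i.elim0) (by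
      refine ne_top_of_le_ne_top hL.ne (lintegral_mono fun q => ?_)
      simp only [pow_zero, inv_one, mul_one]
      push_cast
      exact le_rfl)
  refine ⟨s, hs, fun e x h hx => ?_⟩
  have h1 := congrFun (hs' e x h hx) Fin.elim0
  simp only [mulPow, Finset.univ_eq_empty, Finset.prod_empty, mul_one] at h1
  exact h1

/-- **only constants are square integrable for the weight of `-K_X`** -/
theorem hconst [CompactSpace X] [PreconnectedSpace X] (hN : H212.Thin (n := n) B.Xoᶜ)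
    (hφ : IsCanonicalMetric φ) (F : (Fin n → ℂ) × ℕ → ℂ) (hF : S.Holo F)
    (hL : ∫⁻ q, ENNReal.ofReal (‖F q‖ ^ 2 * Real.exp (-(-B.wt φ q))) ∂S.μ < ⊤) :
    ∃ c : ℂ, ∀ q ∈ S.M, F q = c := by
  obtain ⟨s, hs, hs'⟩ := ext_zero (b := 0) hN hφ hF (by
    refine lt_of_le_of_lt (lintegral_mono fun q => ?_) hL
    simp)
  obtain ⟨c, hc⟩ := isTen_const hs
  refine ⟨c, fun q hq => ?_⟩
  have h1 := hs' _ _ (B.ce_at q) (B.j_mem hq)
  rw [hc _ _ (B.ce_at q)] at h1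
  simp only [sc, toTen, pow_zero, mul_one] at h1
  rw [(B.ce_at q).left_inv, B.θ_j hq] at h1
  exact h1.symm

/-- **from the model to `X`** -/
theorem exists_section (hN : H212.Thin (n := n) B.Xoᶜ)
    (hφ : IsCanonicalMetric φ) {F : (Fin n → ℂ) × ℕ → ℂ} (hF : S.Holo F)
    (hF0 : ∃ q ∈ S.M, F q ≠ 0)
    (hL : ∫⁻ q, ENNReal.ofReal (‖F q‖ ^ 2 *
      Real.exp (-(((b : ℝ) + 1) * (-B.wt φ q)))) ∂S.μ < ⊤) :
    ∃ s : Ten n 0 X, IsTen 0 b s ∧ TenNZ s := by
  obtain ⟨s, hs, hs'⟩ := ext_zero (b := b) hN hφ hF hL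
  obtain ⟨q, hq, hq0⟩ := hF0
  refine ⟨s, hs, B.ce q, B.j q, Fin.elim0, B.ce_at q, ?_⟩
  have h1 := hs' _ _ (B.ce_at q) (B.j_mem hq)
  show sc s (B.ce q) (B.ce q (B.j q)) ≠ 0
  rw [h1]
  simp only [sc, toTen]
  rw [(B.ce_at q).left_inv, B.θ_j hq]
  exact mul_ne_zero hq0 (pow_ne_zero _ (inv_ne_zero (B.J_det (B.ce_at q) (B.j_mem hq))))

end G5

section common

variable {n : ℕ} {X : Type*} [TopologicalSpace X] [ChartedSpace (Cm n) X]
  [IsManifold 𝓘(ℂ, Cm n) ω X] [ConnectedSpace X] {L : Type*} [Field L] {C : CompData n X L}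

/-- common denominators -/
theorem Lb_common : ∀ {k : ℕ} (f : Fin k → L), (∀ l, C.Lb 0 (f l)) →
    ∃ (p m : ℕ) (T : Ten n p X) (A : Fin k → Ten n p X), IsTen p m T ∧ TenNZ T ∧
      (∀ l, IsTen p m (A l)) ∧ ∀ l I, C.comp m (A l) I = f l * C.comp m T I
  | 0, _, _ => by
    obtain ⟨k, m, m', u₀, u, hm, h₀, h, hz, hu⟩ := CompData.Lb_one C
    exact ⟨k, m, u₀, fun i => i.elim0, h₀, hz, fun i => i.elim0, fun i => i.elim0⟩
  | k + 1, f, hf => by
    obtain ⟨p, m, T, A, hT, hTZ, hA, hAf⟩ := Lb_common (fun l : Fin k => f l.castSucc)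
      fun l => hf _
    obtain ⟨k', m', m'', u₀, u, hm, h₀, h, hz, hu⟩ := hf (Fin.last k)
    have hm' : m'' = m' := by
      rw [add_zero] at hm
      exact_mod_cast hm
    subst hm'
    refine ⟨p + k', m + m'', tmul T u₀, fun l => Fin.lastCases (tmul T u)
      (fun l => tmul (A l) u₀) l, isTen_tmul hT h₀, tenNZ_tmul hT h₀ hTZ hz, ?_, ?_⟩
    · intro l
      refine Fin.lastCases ?_ (fun l => ?_) l
      · simp only [Fin.lastCases_last]
        exact isTen_tmul hT h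
      · simp only [Fin.lastCases_castSucc]
        exact isTen_tmul (hA l) h₀
    · intro l I
      have h1 : I = Fin.append (fun i => I (Fin.castAdd k' i)) (fun j => I (Fin.natAdd p j)) :=
        (Fin.append_castAdd_natAdd (f := I)).symm
      refine Fin.lastCases ?_ (fun l => ?_) l
      · simp only [Fin.lastCases_last]
        rw [h1, C.comp_tmul hT h, C.comp_tmul hT h₀, hu]
        ring
      · simp only [Fin.lastCases_castSucc]
        rw [h1, C.comp_tmul (hA l) h₀, C.comp_tmul hT h₀, hAf]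
        ring

end common

section H1

variable {n : ℕ} {L : Type} [Field L] [Algebra ℂ L] [Algebra (Pol n) L]
  [IsScalarTower ℂ (Pol n) L] [FaithfulSMul (Pol n) L] {A : H340.Mod n L}
  {X : Type} [TopologicalSpace X] [ChartedSpace (Cm n) X]
  [IsManifold 𝓘(ℂ, Cm n) ω X] [ConnectedSpace X] {B : H216.Brg A.S X} {C : CompData n X L}
  {φ : Chart n X → Cm n → ℝ}
  {k : ℕ} {K₀ : Type} [Field K₀] [Algebra ℂ K₀] [Algebra (Pol k) K₀]
  [IsScalarTower ℂ (Pol k) K₀] [FaithfulSMul (Pol k) K₀] {Bm : H340.Mod k K₀}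
  {Φ : (Fin n → ℂ) × ℕ → (Fin k → ℂ) × ℕ} {ι : Fin k ↪ Fin n} {i : K₀ →+* L}

/-- **(H1)**: the input `BaseProp` of step (5.2) -/
theorem baseProp (hN : H212.Thin (n := n) B.Xoᶜ) (hφ : IsCanonicalMetric φ)
    (hC : ∀ {k m : ℕ} {u : Ten n k X}, IsTen k m u → ∀ I, A.IsReg (C.comp m u I) ∧
      ∀ q ∈ A.S.M, A.val (C.comp m u I) q = B.comp m u I q)
    -- the coordinates of the base are quotients of tensors
    (hz : ∀ l : Fin k, C.Lb 0 (algebraMap (Pol n) L (MvPolynomial.X (ι l))))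
    -- the group trick
    {b₁ : ℕ} (hb₁ : 0 < b₁) {s : L} (hs0 : s ≠ 0) (hsr : A.IsReg s) (hsi : A.IsReg s⁻¹)
    (hgen : ∀ (b : ℤ) (f : L), f ≠ 0 → C.Lb b f →
      ∃ (j : ℤ) (g : L), b = j * b₁ ∧ C.Lb 0 g ∧ g ≠ 0 ∧ f = s ^ j * g)
    -- the base
    (hK₀ : ∀ g, C.Lb 0 g → ∃ g₀ : K₀, i g₀ = g)
    (hΦ : ∀ a, Bm.IsReg a → A.IsReg (i a) ∧ ∀ q ∈ A.S.M, A.val (i a) q = Bm.val a (Φ q))
    (hfib : H531.Fib A.S Bm.S ι Φ) :
    H531.BaseProp A.S Bm.S ι Φ (fun q => -B.wt φ q) (A.val s) b₁ := by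
  intro j F hF hL
  obtain ⟨p, m, T, Al, hT, hTZ, hA, hAf⟩ := Lb_common
    (fun l : Fin k => algebraMap (Pol n) L (MvPolynomial.X (ι l))) hz
  have hreg : ∀ l : Fin k, A.IsReg (algebraMap (Pol n) L (MvPolynomial.X (ι l))) := fun l =>
    H340.Mod.isReg_alg _
  obtain ⟨s', hs', hss⟩ := ext_L2' (b := j * b₁) (t := k + 1) (B := B) (T := T) (A := Al)
    (zf := fun l q => q.1 (ι l)) hN hφ hF hT hA
    (fun l => Sheets.Holo.fst (f := fun z => z (ι l)) (differentiable_apply _).differentiableOn)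
    (by
      intro l I q hq
      rw [← (hC (hA l) I).2 q hq, ← (hC hT I).2 q hq, hAf l I,
        H340.Mod.val_mul hq (hreg l) (hC hT I).1, H340.Mod.val_alg hq, MvPolynomial.eval_X])
    (by
      refine ne_top_of_le_ne_top hL.ne (lintegral_mono fun q => ENNReal.ofReal_le_ofReal ?_)
      rw [mul_assoc]
      refine mul_le_mul_of_nonneg_left ?_ (by positivity)
      unfold H531.wj H531.N1
      refine mul_le_mul_of_nonneg_right ?_ (by positivity)
      rw [← Real.exp_nat_mul]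
      refine le_of_eq (congrArg Real.exp ?_)
      show -(((j * b₁ + 1 : ℕ) : ℝ) * -B.wt φ q) = ((j * b₁ + 1 : ℕ) : ℝ) * - -B.wt φ q
      ring)
  exact exists_base hC hb₁ hs0 hsr hsi hgen hK₀ hΦ (fun q hq => hfib.fst q hq) hfib.maps
    (fun W s hs z hz' => by
      obtain ⟨W', σ, h1, h2, h3⟩ := hfib.loc W s hs z hz'
      exact ⟨W', σ, h1, h2, h3⟩) hfib.surj hF hT hTZ hs' hss

end H1

end Vale.Agent.P299.H126
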