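import Vale.Agent.P299.H126.Pow
import Vale.Agent.P299.H126.Cov
import Vale.Agent.P299.H212.Thin
import Vale.Agent.P299.H216.Brg

/-!
# `L²` functions on the étale cover are tensors on `X`
-/

open scoped Manifold ContDiff ComplexOrder Topology ENNReal
open Vale.Agent.P272.K MeasureTheory Metric
open Vale.Agent.P300.L2

set_option linter.unusedSectionVars false

noncomputable section

namespace Vale.Agent.P299.H126

open D H212

/-- a thin set in the sense of `H212` is thin -/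
theorem thin_of_212 {n : ℕ} {X : Type*} [TopologicalSpace X] [ChartedSpace (Cm n) X] {N : Set X}
    (h : H212.Thin (n := n) N) : Thin n N := by
  intro e x hx
  obtain ⟨g, hg, h0, h1⟩ := h e x hx
  have h2 : ∀ᶠ z in 𝓝 (e x), AnalyticAt ℂ g z ∧ (∃ᶠ w in 𝓝 z, g w ≠ 0) ∧
      (g z ≠ 0 → e.symm z ∉ N) ∧ z ∈ e.target := by
    filter_upwards [hg.eventually_analyticAt, eventually_frequently_ne hg h0, h1,
      hx.nhds_target] with z a b c d using ⟨a, b, c, d⟩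
  obtain ⟨U, hU1, hU2, hU3⟩ := _root_.eventually_nhds_iff.1 h2
  refine ⟨U, g, hU2, hU3, fun z hz => (hU1 z hz).2.2.2, fun z hz =>
    (hU1 z hz).1.differentiableAt.differentiableWithinAt, fun z hz => (hU1 z hz).2.1,
    fun z hz hzN => ?_⟩
  by_contra hne
  exact (hU1 z hz).2.2.1 hne hzN

variable {n N : ℕ} {S : Sheets n N} {X : Type} [TopologicalSpace X] [ChartedSpace (Cm n) X]
  [IsManifold 𝓘(ℂ, Cm n) ω X] [Nonempty X] (B : H216.Brg S X)

/-- the function `F` on the étale cover as a section of `-bK` over `Xo` -/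
def toTen (b : ℕ) (F : (Fin n → ℂ) × ℕ → ℂ) : Ten n 0 X := fun e z _ =>
  F (B.θ (e.symm z)) * ((B.J e (e.symm z)).det⁻¹) ^ b

/-- holomorphic functions on the cover are holomorphic in the charts of `X` -/
theorem holo_chart {F : (Fin n → ℂ) × ℕ → ℂ} (hF : S.Holo F) {e : Chart n X} {x : X}
    (h : At e x) (hx : x ∈ B.Xo) : AnalyticAt ℂ (fun z => F (B.θ (e.symm z))) (e x) := by
  obtain ⟨W, s, hs, hW, hev⟩ := B.loc x hx
  have h1 := B.cf_analyticAt h hx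
  have h2 : B.cf e (e x) ∈ W := by rw [B.cf_eq h]; exact hW
  have h3 : AnalyticAt ℂ (fun z => F (z, s z)) (B.cf e (e x)) :=
    Vale.Agent.P268.analyticAt_of_differentiableOn hs.isOpen (hF W s hs) h2
  refine (h3.comp h1).congr ?_
  have h4 : Filter.Tendsto e.symm (𝓝 (e x)) (𝓝 x) := by
    have := e.continuousAt_symm h.mem_target
    rwa [ContinuousAt, h.left_inv] at this
  filter_upwards [h4.eventually hev] with z hz
  show F ((B.θ (e.symm z)).1, s (B.θ (e.symm z)).1) = F (B.θ (e.symm z))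
  rw [← hz]

theorem toTen_off {F : (Fin n → ℂ) × ℕ → ℂ} (hF : S.Holo F) (b : ℕ) :
    IsTenOff B.Xoᶜ 0 b (toTen B b F) := by
  constructor
  · intro e x h hx I
    have hx' : x ∈ B.Xo := not_not.1 hx
    refine (holo_chart B hF h hx').mul ?_
    have h1 : AnalyticAt ℂ (fun z => (B.J e (e.symm z)).det) (e x) :=
      (B.J_det_analyticAt h hx').analyticAt
    refine (h1.inv ?_).pow b
    rw [h.left_inv]
    exact B.J_det h hx'
  · intro e e' x h h' hx I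
    have hx' : x ∈ B.Xo := not_not.1 hx
    rw [tenPull_sc]
    simp only [toTen]
    rw [h.left_inv, h'.left_inv, B.J_comp h h' hx', Matrix.det_mul]
    have h1 := B.J_det h' hx'
    have h2 := jacM_det_ne_zero h h'
    rw [mul_inv, mul_pow, inv_pow (jacM e e' x).det]
    have h3 : (jacM e e' x).det ^ b ≠ 0 := pow_ne_zero _ h2
    field_simp

/-- **`L²` functions on the étale cover are tensors on `X`** -/
theorem ext_L2 (hN : Thin n B.Xoᶜ) {φ : Chart n X → Cm n → ℝ} (hφ : IsCanonicalMetric φ)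
    {ψ : (Fin n → ℂ) × ℕ → ℝ}
    (hψ : ∀ e x, At e x → x ∈ B.Xo →
      ψ (B.θ x) = Real.log (‖(B.J e x).det‖ ^ 2) - φ e (e x))
    (hcov : ∀ (e : Chart n X), e ∈ atlas (Cm n) X → ∀ A ⊆ e.target, MeasurableSet A →
      (∀ z ∈ A, e.symm z ∈ B.Xo) → ∀ G : (Fin n → ℂ) × ℕ → ℝ≥0∞, AEMeasurable G S.μ →
      ∫⁻ z in A, ENNReal.ofReal (‖(B.J e (e.symm z)).det‖ ^ 2) * G (B.θ (e.symm z)) ≤
        ∫⁻ q, G q ∂S.μ)
    {b m t p r : ℕ} {F : (Fin n → ℂ) × ℕ → ℂ} (hF : S.Holo F) {T : Ten n p X}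
    {A : Fin r → Ten n p X} (hT : IsTen p m T) (hA : ∀ i, IsTen p m (A i))
    {zf : Fin r → (Fin n → ℂ) × ℕ → ℂ}
    (hz : ∀ i e x, At e x → x ∈ B.Xo → A i e (e x) = zf i (B.θ x) • T e (e x))
    (hm : AEMeasurable (fun q => ENNReal.ofReal (‖F q‖ ^ 2 * Real.exp (-((b + 1 : ℕ) * ψ q)) *
      ((1 + ∑ i, ‖zf i q‖ ^ 2) ^ t)⁻¹)) S.μ)
    (hL : ∫⁻ q, ENNReal.ofReal (‖F q‖ ^ 2 * Real.exp (-((b + 1 : ℕ) * ψ q)) *
      ((1 + ∑ i, ‖zf i q‖ ^ 2) ^ t)⁻¹) ∂S.μ ≠ ⊤) :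
    ∃ s : Ten n (t * p) X, IsTen (t * p) (b + t * m) s ∧
      ∀ e x, At e x → x ∈ B.Xo → s e (e x) = mulPow t (toTen B b F) T e (e x) := by
  suffices hLL : ∀ e y, At e y → ∃ ρ > 0,
      ∫⁻ z in ball (e y) ρ ∩ {z | z ∈ e.target ∧ e.symm z ∉ B.Xoᶜ},
        ‖sc (toTen B b F) e z‖ₑ ^ 2 * wt t (fun i x => zf i (B.θ x)) (e.symm z) ≠ ⊤ by
    obtain ⟨s, hs, hs'⟩ := ext_mul (zf := fun i x => zf i (B.θ x)) hN
      (B.isOpen.isClosed_compl) (t := t) (toTen_off B hF b) hT hA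
      (fun i e x h hx => hz i e x h (not_not.1 hx)) hLL
    exact ⟨s, hs, fun e x h hx => hs' e x h (not_not.2 hx)⟩
  intro e y hy
  -- local bound for the weight
  have hc : ContinuousAt (φ e) (e y) := (hφ.smooth e y hy).continuousAt
  have hev : ∀ᶠ z in 𝓝 (e y), φ e (e y) - 1 < φ e z :=
    hc.eventually (lt_mem_nhds (by linarith))
  obtain ⟨ρ, hρ, hball⟩ := Metric.eventually_nhds_iff_ball.1 hev
  refine ⟨ρ, hρ, ?_⟩
  set A' : Set (Cm n) := ball (e y) ρ ∩ {z | z ∈ e.target ∧ e.symm z ∉ B.Xoᶜ} with hA'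
  have hmeas : MeasurableSet A' := by
    have : IsOpen {z | z ∈ e.target ∧ e.symm z ∉ B.Xoᶜ} := by
      have := e.isOpen_inter_preimage_symm B.isOpen
      convert this using 1
      ext z
      simp [Set.mem_inter_iff]
    exact (isOpen_ball.inter this).measurableSet
  have h1 := hcov e hy.1 A' (fun z hz' => hz'.2.1) hmeas (fun z hz' => not_not.1 hz'.2.2) _ hm
  set c : ℝ := Real.exp ((b + 1 : ℕ) * (φ e (e y) - 1)) with hcdef
  have hc0 : 0 < c := Real.exp_pos _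
  have hbd : ∀ z ∈ A', ‖sc (toTen B b F) e z‖ₑ ^ 2 * wt t (fun i x => zf i (B.θ x)) (e.symm z) ≤
      ENNReal.ofReal c⁻¹ * (ENNReal.ofReal (‖(B.J e (e.symm z)).det‖ ^ 2) *
        ENNReal.ofReal (‖F (B.θ (e.symm z))‖ ^ 2 *
          Real.exp (-((b + 1 : ℕ) * ψ (B.θ (e.symm z)))) *
          ((1 + ∑ i, ‖zf i (B.θ (e.symm z))‖ ^ 2) ^ t)⁻¹)) := by
    rintro z ⟨hz1, hz2, hz3⟩
    have hzx : At e (e.symm z) := At.of_target hy.1 hz2
    have hr : e (e.symm z) = z := e.right_inv hz2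
    have hxo : e.symm z ∈ B.Xo := not_not.1 hz3
    have hdet := B.J_det hzx hxo
    set d : ℂ := (B.J e (e.symm z)).det with hd
    have hdp : 0 < ‖d‖ ^ 2 := by positivity
    have h2 : ψ (B.θ (e.symm z)) = Real.log (‖d‖ ^ 2) - φ e z := by
      rw [hψ e _ hzx hxo, hr]
    have h3 : Real.exp (-((b + 1 : ℕ) * ψ (B.θ (e.symm z)))) =
        ((‖d‖ ^ 2) ^ (b + 1))⁻¹ * Real.exp ((b + 1 : ℕ) * φ e z) := by
      rw [h2]
      have h4 : -(((b + 1 : ℕ) : ℝ) * (Real.log (‖d‖ ^ 2) - φ e z)) =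
          -(((b + 1 : ℕ) : ℝ) * Real.log (‖d‖ ^ 2)) + ((b + 1 : ℕ) : ℝ) * φ e z := by ring
      rw [h4, Real.exp_add, Real.exp_neg, Real.exp_nat_mul, Real.exp_log hdp]
    have h5 : c ≤ Real.exp ((b + 1 : ℕ) * φ e z) := by
      rw [hcdef]
      refine Real.exp_le_exp.2 ?_
      exact mul_le_mul_of_nonneg_left (hball z hz1).le (by positivity)
    have h6 : ∀ w : ℂ, ‖w‖ₑ ^ 2 = ENNReal.ofReal (‖w‖ ^ 2) := by
      intro w
      rw [← ofReal_norm, ENNReal.ofReal_pow (norm_nonneg _)]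
    rw [h6, wt, ← ENNReal.ofReal_mul (by positivity), ← ENNReal.ofReal_mul (by positivity),
      ← ENNReal.ofReal_mul (by positivity)]
    refine ENNReal.ofReal_le_ofReal ?_
    rw [h3]
    simp only [sc, toTen]
    rw [← hd, norm_mul, norm_pow, norm_inv, mul_pow]
    set w := ((1 + ∑ i, ‖zf i (B.θ (e.symm z))‖ ^ 2) ^ t)⁻¹ with hw
    have hw0 : 0 ≤ w := by positivity
    have h7 : ((‖d‖⁻¹ ^ b) ^ 2) = ((‖d‖ ^ 2) ^ b)⁻¹ := by
      rw [← pow_mul, mul_comm b 2, pow_mul, inv_pow, inv_pow]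
    rw [h7]
    have h8 : c⁻¹ * (‖d‖ ^ 2 * (‖F (B.θ (e.symm z))‖ ^ 2 *
        (((‖d‖ ^ 2) ^ (b + 1))⁻¹ * Real.exp ((b + 1 : ℕ) * φ e z)) * w)) =
        (c⁻¹ * Real.exp ((b + 1 : ℕ) * φ e z)) *
          (‖F (B.θ (e.symm z))‖ ^ 2 * ((‖d‖ ^ 2) ^ b)⁻¹ * w) := by
      have h10 : ‖d‖ ^ 2 * ((‖d‖ ^ 2) ^ (b + 1))⁻¹ = ((‖d‖ ^ 2) ^ b)⁻¹ := by
        rw [pow_succ (‖d‖ ^ 2) b, mul_inv, mul_comm, mul_assoc, inv_mul_cancel₀ hdp.ne', mul_one]
      linear_combination (c⁻¹ * ‖F (B.θ (e.symm z))‖ ^ 2 *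
        Real.exp ((b + 1 : ℕ) * φ e z) * w) * h10
    rw [h8]
    have h9 : 1 ≤ c⁻¹ * Real.exp ((b + 1 : ℕ) * φ e z) := by
      rw [inv_mul_eq_div, le_div_iff₀ hc0, one_mul]
      exact h5
    exact le_mul_of_one_le_left (by positivity) h9
  refine ne_top_of_le_ne_top ?_ (setLIntegral_mono' hmeas hbd)
  rw [lintegral_const_mul' _ _ ENNReal.ofReal_ne_top]
  exact ENNReal.mul_ne_top ENNReal.ofReal_ne_top (ne_top_of_le_ne_top hL h1)

end Vale.Agent.P299.H126
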