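import Vale.Agent.P299.H340.Model.Alg
import Vale.Agent.P299.H212.Deg
import Vale.Agent.P299.H216.BrgT
import Vale.Agent.P299.H126.HX
import Vale.Agent.P299.H126.Desc

/-!
# `L²` functions with vertical weights: components
-/

open scoped Manifold ContDiff ComplexOrder Topology ENNReal
open Vale.Agent.P272.K MeasureTheory Metric
open Vale.Agent.P300.L2 Filter

set_option linter.unusedSectionVars false

noncomputable section

namespace Vale.Agent.P299.H126

open D H212

section comp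

variable {n p t : ℕ}

theorem tenPull_pow (J : Matrix (Fin n) (Fin n) ℂ) (c : ℂ) (g : (Fin p → Fin n) → ℂ)
    (I : Fin (t * p) → Fin n) :
    tenPull J (fun K => c * ∏ b : Fin t, g (blk K b)) I =
      c * ∏ b : Fin t, tenPull J g (blk I b) := by
  simp only [tenPull]
  rw [Finset.prod_univ_sum, Finset.mul_sum, Fintype.piFinset_univ]
  rw [← (blkEquiv (n := n) (p := p) (r := t)).sum_comp]
  refine Finset.sum_congr rfl fun K _ => ?_
  have h3 : (∏ a, J (K a) (I a)) = ∏ b : Fin t, ∏ c : Fin p, J (blk K b c) (blk I b c) := by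
    rw [← finProdFinEquiv.prod_comp, Fintype.prod_prod_type]
    rfl
  rw [h3, Finset.prod_mul_distrib]
  show (∏ b : Fin t, ∏ c : Fin p, J (blk K b c) (blk I b c)) *
    (c * ∏ b : Fin t, g (blk K b)) = _
  have h4 : (∏ b : Fin t, ∏ a : Fin p, J ((blkEquiv (n := n) (p := p) (r := t)) K b a) (blk I b a))
      = ∏ b : Fin t, ∏ c : Fin p, J (blk K b c) (blk I b c) := rfl
  have h5 : (∏ b : Fin t, g ((blkEquiv (n := n) (p := p) (r := t)) K b)) =
      ∏ b : Fin t, g (blk K b) := rfl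
  rw [h4, h5]
  ring

variable {N : ℕ} {S : Sheets n N} {X : Type} [TopologicalSpace X] [ChartedSpace (Cm n) X]
  [IsManifold 𝓘(ℂ, Cm n) ω X] [Nonempty X] (B : H216.Brg S X)

/-- components of `F ⊗ T^{⊗ t}` -/
theorem comp_mulPow {b m : ℕ} {F : (Fin n → ℂ) × ℕ → ℂ} {T : Ten n p X} {s : Ten n (t * p) X}
    {q : (Fin n → ℂ) × ℕ} (hq : q ∈ S.M)
    (hs : ∀ e, At e (B.j q) → s e (e (B.j q)) = mulPow t (toTen B b F) T e (e (B.j q)))
    (I : Fin (t * p) → Fin n) :
    B.comp (b + t * m) s I q = F q * ∏ c : Fin t, B.comp m T (blk I c) q := by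
  have h := B.ce_at q
  have hdet := B.J_det h (B.j_mem hq)
  unfold H216.Brg.comp
  rw [hs _ h]
  set e := B.ce q with he
  set J := B.J e (B.j q) with hJ
  have h1 : mulPow t (toTen B b F) T e (e (B.j q)) =
      fun K => (F q * (J.det⁻¹) ^ b) * ∏ c : Fin t, T e (e (B.j q)) (blk K c) := by
    funext K
    simp only [mulPow, sc, toTen]
    rw [h.left_inv, B.θ_j hq]
  rw [h1, tenPull_pow, Finset.prod_mul_distrib, Finset.prod_const, Finset.card_univ,
    Fintype.card_fin, ← pow_mul, pow_add, mul_comm m t]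
  have h2 : J.det ^ b * (J.det⁻¹) ^ b = 1 := by
    rw [← mul_pow, mul_inv_cancel₀ hdet, one_pow]
  linear_combination (J.det ^ (t * m) * F q *
    ∏ c : Fin t, tenPull J⁻¹ (T e (e (B.j q))) (blk I c)) * h2

theorem comp_mulPow' {b m : ℕ} {F : (Fin n → ℂ) × ℕ → ℂ} {T : Ten n p X} {s : Ten n (t * p) X}
    {q : (Fin n → ℂ) × ℕ} (hq : q ∈ S.M)
    (hs : ∀ e x, At e x → x ∈ B.Xo → s e (e x) = mulPow t (toTen B b F) T e (e x))
    (I : Fin (t * p) → Fin n) :
    B.comp (b + t * m) s I q = F q * ∏ c : Fin t, B.comp m T (blk I c) q :=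
  comp_mulPow B hq (fun e h => hs e _ h (B.j_mem hq)) I

/-- `T^{⊗ t}` -/
def tpow (t : ℕ) (T : Ten n p X) : Ten n (t * p) X := mulPow t (fun _ _ _ => 1) T

theorem isTen_tpow {m : ℕ} {T : Ten n p X} (hT : IsTen p m T) :
    IsTen (t * p) (t * m) (tpow t T) := by
  have h1 : IsTenOff (X := X) (∅ : Set X) 0 0 (fun _ _ _ => 1 : Ten n 0 X) := IsTen.off isTen_one
  have h2 := isTenOff_mulPow (t := t) h1 (IsTen.off (N := ∅) hT)
  rw [zero_add] at h2
  exact ⟨fun e x h I => h2.holo e x h (by simp) I,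
    fun e e' x h h' I => h2.change e e' x h h' (by simp) I⟩

theorem comp_tpow {m : ℕ} {T : Ten n p X} {q : (Fin n → ℂ) × ℕ} (hq : q ∈ S.M)
    (I : Fin (t * p) → Fin n) :
    B.comp (t * m) (tpow t T) I q = ∏ c : Fin t, B.comp m T (blk I c) q := by
  have h1 := comp_mulPow (b := 0) (m := m) (t := t) (T := T) (s := tpow t T) B (F := fun _ => 1) hq
    (fun e h => by
      funext K
      simp [tpow, mulPow, sc, toTen]) I
  rw [zero_add, one_mul] at h1
  exact h1

theorem tenNZ_tpow {T : Ten n p X} (h : TenNZ T) : TenNZ (tpow t T) := by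
  obtain ⟨e, x, I, hx, hI⟩ := h
  refine ⟨e, x, (blkEquiv (n := n) (p := p) (r := t)).symm fun _ => I, hx, ?_⟩
  have h1 : ∀ c : Fin t, blk ((blkEquiv (n := n) (p := p) (r := t)).symm fun _ => I) c = I := by
    intro c
    exact congrFun ((blkEquiv (n := n) (p := p) (r := t)).apply_symm_apply fun _ => I) c
  simp only [tpow, mulPow, h1, one_mul]
  rw [Finset.prod_const]
  exact pow_ne_zero _ hI

end comp

end Vale.Agent.P299.H126
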