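import Vale.Agent.P299.H126.Ext

/-!
# Extension of `F ⊗ B^{⊗ t}` for square integrable `F` with a weight `(1 + ∑ |A_i / B|²)^{-t}`
-/

open scoped Manifold ContDiff ComplexOrder Topology ENNReal
open Vale.Agent.P272.K MeasureTheory Metric

set_option linter.unusedSectionVars false

noncomputable section

namespace Vale.Agent.P299.H126

open D H212

variable {n p r : ℕ} {X : Type*} [TopologicalSpace X] [ChartedSpace (Cm n) X]

/-- the only component of a tensor of degree `0` -/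
abbrev sc (F : Ten n 0 X) (e : Chart n X) (z : Cm n) : ℂ := F e z Fin.elim0

theorem tenPull_sc (J : Matrix (Fin n) (Fin n) ℂ) (f : (Fin 0 → Fin n) → ℂ) (I : Fin 0 → Fin n) :
    tenPull J f I = f Fin.elim0 := by
  have h : ∀ K : Fin 0 → Fin n, K = Fin.elim0 := fun K => funext fun i => i.elim0
  unfold tenPull
  rw [Fintype.sum_eq_single (Fin.elim0 : Fin 0 → Fin n) (fun K hK => absurd (h K) hK)]
  simp

/-- `F ⊗ B^{⊗ t}` -/
def mulPow (t : ℕ) (F : Ten n 0 X) (B : Ten n p X) : Ten n (t * p) X := fun e z I =>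
  sc F e z * ∏ b : Fin t, B e z (blk I b)

theorem IsTen.off {N : Set X} {m : ℕ} {s : Ten n p X} (hs : IsTen p m s) : IsTenOff N p m s :=
  ⟨fun e x hx _ I => hs.holo e x hx I, fun e e' x hx hx' _ I => hs.change e e' x hx hx' I⟩

theorem isTenOff_mulPow {N : Set X} {b m t : ℕ} {F : Ten n 0 X} {B : Ten n p X}
    (hF : IsTenOff N 0 b F) (hB : IsTenOff N p m B) :
    IsTenOff N (t * p) (b + t * m) (mulPow t F B) := by
  constructor
  · intro e x hx hxN I
    exact (hF.holo e x hx hxN _).mul (Finset.analyticAt_fun_prod _ fun i _ => hB.holo e x hx hxN _)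
  · intro e e' x hx hx' hxN I
    set J := jacM e e' x with hJ
    have h1 : J.det ^ (b + t * m) * mulPow t F B e (e x) I =
        (J.det ^ b * sc F e (e x)) * ∏ c : Fin t, (J.det ^ m * B e (e x) (blk I c)) := by
      rw [Finset.prod_mul_distrib, Finset.prod_const, Finset.card_univ, Fintype.card_fin,
        ← pow_mul, pow_add, mul_comm t m]
      simp only [mulPow]
      ring
    rw [h1, hF.change e e' x hx hx' hxN, tenPull_sc]
    simp_rw [hJ, hB.change e e' x hx hx' hxN, ← hJ]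
    simp only [tenPull, mulPow]
    rw [Finset.prod_univ_sum, Finset.mul_sum, Fintype.piFinset_univ]
    rw [← (blkEquiv (n := n) (p := p) (r := t)).sum_comp]
    refine Finset.sum_congr rfl fun K _ => ?_
    have h3 : (∏ a, J (K a) (I a)) = ∏ b : Fin t, ∏ c : Fin p, J (blk K b c) (blk I b c) := by
      rw [← finProdFinEquiv.prod_comp, Fintype.prod_prod_type]
      rfl
    rw [h3, Finset.prod_mul_distrib]
    show sc F e' (e' x) * ((∏ b : Fin t, ∏ c : Fin p, J (blk K b c) (blk I b c)) *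
      ∏ b : Fin t, B e' (e' x) (blk K b)) = _
    ring

variable [IsManifold 𝓘(ℂ, Cm n) ω X]

/-- the weight `(1 + ∑ |z_i|²)^{-t}` -/
def wt (t : ℕ) (zf : Fin r → X → ℂ) (x : X) : ℝ≥0∞ :=
  ENNReal.ofReal (((1 + ∑ i, ‖zf i x‖ ^ 2) ^ t)⁻¹)

/-- **Extension**: if `F` is locally square integrable with the weight `(1 + ∑ |A_i / B|²)^{-t}`,
then `F ⊗ B^{⊗ t}` extends to a holomorphic tensor on `X`. -/
theorem ext_mul {N : Set X} (hN : Thin n N) (hNc : IsClosed N) {b m t : ℕ} {F : Ten n 0 X} {B : Ten n p X}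
    {A : Fin r → Ten n p X} {zf : Fin r → X → ℂ}
    (hF : IsTenOff N 0 b F) (hB : IsTen p m B) (hA : ∀ i, IsTen p m (A i))
    (hz : ∀ i e x, At e x → x ∉ N → A i e (e x) = zf i x • B e (e x))
    (hL : ∀ e y, At e y → ∃ ρ > 0,
      ∫⁻ z in ball (e y) ρ ∩ {z | z ∈ e.target ∧ e.symm z ∉ N},
        ‖sc F e z‖ₑ ^ 2 * wt t zf (e.symm z) ≠ ⊤) :
    ∃ s : Ten n (t * p) X, IsTen (t * p) (b + t * m) s ∧
      ∀ e x, At e x → x ∉ N → s e (e x) = mulPow t F B e (e x) := by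
  refine ext_ten hN (isTenOff_mulPow hF (IsTen.off hB)) ?_
  intro e y hy I
  obtain ⟨ρ, hρ, hρL⟩ := hL e y hy
  -- a local bound of `|B|² (1 + ∑ |z_i|²) = |B|² + ∑ |A_i|²`
  have hcont : ContinuousAt (fun z => ∑ K, (‖B e z K‖ ^ 2 + ∑ i, ‖A i e z K‖ ^ 2)) (e y) := by
    refine tendsto_finsetSum _ fun K _ => ?_
    refine Filter.Tendsto.add (((hB.holo e y hy K).continuousAt.norm.pow 2)) ?_
    exact tendsto_finsetSum _ fun i _ => ((hA i).holo e y hy K).continuousAt.norm.pow 2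
  set C : ℝ := ∑ K, (‖B e (e y) K‖ ^ 2 + ∑ i, ‖A i e (e y) K‖ ^ 2) + 1 with hC
  have hC0 : 0 ≤ C := by positivity
  have hev : ∀ᶠ z in 𝓝 (e y), ∑ K, (‖B e z K‖ ^ 2 + ∑ i, ‖A i e z K‖ ^ 2) < C :=
    hcont.eventually (gt_mem_nhds (by rw [hC]; exact lt_add_one _))
  obtain ⟨ρ', hρ', hball⟩ := Metric.eventually_nhds_iff_ball.1 hev
  refine ⟨min ρ ρ', lt_min hρ hρ', ?_⟩
  have hbd : ∀ z ∈ ball (e y) (min ρ ρ') ∩ {z | z ∈ e.target ∧ e.symm z ∉ N},
      ‖mulPow t F B e z I‖ₑ ^ 2 ≤ ENNReal.ofReal (C ^ t) *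
        (‖sc F e z‖ₑ ^ 2 * wt t zf (e.symm z)) := by
    rintro z ⟨hz1, hz2, hz3⟩
    have hzx : At e (e.symm z) := At.of_target hy.1 hz2
    have hr : e (e.symm z) = z := e.right_inv hz2
    set S : ℝ := 1 + ∑ i, ‖zf i (e.symm z)‖ ^ 2 with hS
    have hS1 : 1 ≤ S := by rw [hS]; exact le_add_of_nonneg_right (by positivity)
    have hS0 : 0 < S := by linarith
    have h1 : ∀ K, ‖B e z K‖ ^ 2 ≤ C / S := by
      intro K
      rw [le_div_iff₀ hS0]
      have h2 : ‖B e z K‖ ^ 2 * S = ‖B e z K‖ ^ 2 + ∑ i, ‖A i e z K‖ ^ 2 := by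
        rw [hS, mul_add, mul_one, Finset.mul_sum]
        congr 1
        refine Finset.sum_congr rfl fun i _ => ?_
        have := congrFun (hz i e (e.symm z) hzx hz3) K
        rw [hr] at this
        rw [this, Pi.smul_apply, smul_eq_mul, norm_mul, mul_pow, mul_comm]
      rw [h2]
      refine le_trans ?_ (hball z (ball_subset_ball (min_le_right _ _) hz1)).le
      exact Finset.single_le_sum (f := fun K => ‖B e z K‖ ^ 2 + ∑ i, ‖A i e z K‖ ^ 2)
        (fun K _ => by positivity) (Finset.mem_univ K)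
    have h2 : ‖mulPow t F B e z I‖ ^ 2 ≤ C ^ t * (‖sc F e z‖ ^ 2 * (S ^ t)⁻¹) := by
      simp only [mulPow]
      rw [norm_mul, norm_prod, mul_pow, ← Finset.prod_pow]
      have h3 : ∏ c : Fin t, ‖B e z (blk I c)‖ ^ 2 ≤ ∏ _c : Fin t, C / S :=
        Finset.prod_le_prod (fun _ _ => by positivity) fun c _ => h1 _
      rw [Finset.prod_const, Finset.card_univ, Fintype.card_fin, div_pow] at h3
      calc ‖sc F e z‖ ^ 2 * ∏ c : Fin t, ‖B e z (blk I c)‖ ^ 2
          ≤ ‖sc F e z‖ ^ 2 * (C ^ t / S ^ t) := by gcongr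
        _ = C ^ t * (‖sc F e z‖ ^ 2 * (S ^ t)⁻¹) := by rw [div_eq_mul_inv]; ring
    have h4 : ∀ c : ℂ, ‖c‖ₑ ^ 2 = ENNReal.ofReal (‖c‖ ^ 2) := by
      intro c
      rw [← ofReal_norm, ENNReal.ofReal_pow (norm_nonneg _)]
    rw [h4, h4, wt, ← ENNReal.ofReal_mul (by positivity), ← ENNReal.ofReal_mul (by positivity)]
    exact ENNReal.ofReal_le_ofReal h2
  have hmeas : MeasurableSet (ball (e y) (min ρ ρ') ∩ {z | z ∈ e.target ∧ e.symm z ∉ N}) :=
    (isOpen_ball.inter (e.isOpen_inter_preimage_symm hNc.isOpen_compl)).measurableSet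
  refine ne_top_of_le_ne_top ?_ (setLIntegral_mono' hmeas hbd)
  rw [lintegral_const_mul' _ _ ENNReal.ofReal_ne_top]
  refine ENNReal.mul_ne_top ENNReal.ofReal_ne_top (ne_top_of_le_ne_top hρL ?_)
  exact lintegral_mono_set (Set.inter_subset_inter_left _ (ball_subset_ball (min_le_left _ _)))

end Vale.Agent.P299.H126
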